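import Vale.Agent.P150.Beyond.Stability.Upper

/-!
# P150, every inverse temperature below one: shared definitions and the two sides of the proof

The route: `notes/P150/helper7-03Dec-notrap.md` (no traps) and
`notes/P150/helper4-03Dec-full-route.md` (exit probability, localisation, mixing).
-/

open Finset MeasureTheory Real
open Vale.Agent.P150.Fast
open Vale.Agent.P150.Beyond Vale.Agent.P150.Beyond.Stability

namespace Vale.Agent.P150.Full

variable {n : ℕ}

/-- The configuration with spin `i` flipped. -/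
def flip (i : Fin n) (x : Fin n → Bool) : Fin n → Bool := Function.update x i (!x i)

/-- The heat-bath rate of flipping spin `i` at `x`, for couplings of strength `θ` and field `y`. -/
noncomputable def flipRate (θ : ℝ) (g : Edge n → ℝ) (y : Fin n → ℝ) (i : Fin n) (x : Fin n → Bool) : ℝ :=
  (1 - spin (x i) * Real.tanh (field (skMat n θ g) y i x)) / 2

/-- The Dirichlet form of the square root of the density of `ν` relative to the Gibbs measure. -/
noncomputable def fisher (θ : ℝ) (g : Edge n → ℝ) (y : Fin n → ℝ) (ν : (Fin n → Bool) → ℝ) : ℝ :=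
  ∑ i, ∑ x, (√(ν x * flipRate θ g y i x) - √(ν (flip i x) * flipRate θ g y i (flip i x))) ^ 2 / 2

/-- Relative entropy of a law to the Gibbs measure. -/
noncomputable def relEnt (θ : ℝ) (g : Edge n → ℝ) (y : Fin n → ℝ) (ν : (Fin n → Bool) → ℝ) : ℝ :=
  ∑ x, ν x * (Real.log (ν x) - Real.log (weight (skMat n θ g) y x))

/-- The excess of the free energy of a law over the TAP value at its mean; it does not involve the field. -/
noncomputable def excess (θ : ℝ) (g : Edge n → ℝ) (ν : (Fin n → Bool) → ℝ) : ℝ :=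
  freeE θ g ν - tap θ g (bary ν)

/-- The tilted TAP free energy. -/
noncomputable def tapField (θ : ℝ) (g : Edge n → ℝ) (y m : Fin n → ℝ) : ℝ :=
  tap θ g m - ∑ i, y i * m i

/-- The magnetisations of the fields `h`. -/
noncomputable def tanhVec (h : Fin n → ℝ) (i : Fin n) : ℝ := Real.tanh (h i)

/-- `K v`. -/
noncomputable def couple (g : Edge n → ℝ) (v : Fin n → ℝ) (i : Fin n) : ℝ := ∑ j, skMat n 1 g i j * v j

/-- The gradient of `tapField` at the magnetisations `tanh h`. -/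
noncomputable def critRes (θ : ℝ) (g : Edge n → ℝ) (y h : Fin n → ℝ) (i : Fin n) : ℝ :=
  h i + θ ^ 2 * (1 - qOf (tanhVec h)) * Real.tanh (h i) - θ * couple g (tanhVec h) i - y i

/-- A critical point up to `ε` lies within `ε` of `m`, in mean square. -/
def NearCrit (θ : ℝ) (g : Edge n → ℝ) (y m : Fin n → ℝ) (ε : ℝ) : Prop :=
  ∃ h : Fin n → ℝ, ∑ i, (Real.tanh (h i) - m i) ^ 2 ≤ ε * n ∧ ∑ i, critRes θ g y h i ^ 2 ≤ ε * n

/-- A nearly stationary law with small covariances. -/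
structure IsGood (θ : ℝ) (g : Edge n → ℝ) (y : Fin n → ℝ) (a ρ : ℝ) (ν : (Fin n → Bool) → ℝ) : Prop where
  law : IsLaw ν
  stationary : fisher θ g y ν ≤ a * n
  pure : covSq ν ≤ ρ * (n : ℝ) ^ 2

/-- Good laws of overlap at least `q₀` sit at critical points and have no excess, for all fields. -/
def LevelAt (β q₀ ε a ρ : ℝ) (g : Edge n → ℝ) : Prop :=
  ∀ θ : ℝ, 0 ≤ θ → θ ≤ β → ∀ (y : Fin n → ℝ) (ν : (Fin n → Bool) → ℝ), IsGood θ g y a ρ ν →
    q₀ ≤ qOf (bary ν) → excess θ g ν ≤ ε * n ∧ NearCrit θ g y (bary ν) ε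

/-- Claim A of the route at level `q₀`. -/
def ClaimA (β q₀ : ℝ) : Prop :=
  ∀ ε : ℝ, 0 < ε → ∃ a : ℝ, 0 < a ∧ ∃ ρ : ℝ, 0 < ρ ∧ ∀ η : ℝ, 0 < η → ∃ n₀ : ℕ, ∀ n ≥ n₀,
    ENNReal.ofReal (1 - η) ≤ disorder n {g | LevelAt β q₀ ε a ρ g}

/-- No traps: a nearly stationary law has small relative entropy. -/
def NoTrap : Prop :=
  ∀ β : ℝ, 0 ≤ β → β < 1 → ∀ ε : ℝ, 0 < ε → ∃ a : ℝ, 0 < a ∧ ∀ η : ℝ, 0 < η → ∃ n₀ : ℕ, ∀ n ≥ n₀,
    ENNReal.ofReal (1 - η) ≤ disorder n {g | ∀ ν : (Fin n → Bool) → ℝ, IsLaw ν →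
      fisher β g 0 ν ≤ a * n → relEnt β g 0 ν ≤ ε * n}

/-- The goal: a gap of order one and mixing in time of order `log n` for every `β < 1`. -/
def FastBelowOne : Prop :=
  ∀ β : ℝ, 0 ≤ β → β < 1 → ∃ a : ℝ, 0 < a ∧ ∃ C : ℝ, 0 < C ∧ ∀ η : ℝ, 0 < η →
    ∃ n₀ : ℕ, ∀ n ≥ n₀, ENNReal.ofReal (1 - η) ≤ disorder n {g | a ≤ gap n β g ∧
      ∀ t, C * Real.log n ≤ t → ∀ x, tvDist n β g t x ≤ 1 / 4}

end Vale.Agent.P150.Full
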