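import Vale.Agent.P150.Full.ScalarB

/-!
# P150: scalar input of the counting step

For `μ = tanh (y + g) - m` with `g ~ N(0, th² d)`: multipliers making the tilted exponent uniformly
negative on compact parameter ranges.
-/

open MeasureTheory ProbabilityTheory Real

namespace Vale.Agent.P150.Full.ScalarB

theorem hasDerivAt_tanh' (x : ℝ) : HasDerivAt tanh (1 - tanh x ^ 2) x := by
  have e : tanh = fun y => sinh y / cosh y := by funext y; exact tanh_eq_sinh_div_cosh y
  rw [e]
  refine ((hasDerivAt_sinh x).div (hasDerivAt_cosh x) (cosh_pos x).ne').congr_deriv ?_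
  field_simp [(cosh_pos x).ne']

theorem continuous_tanh' : Continuous tanh :=
  continuous_iff_continuousAt.2 fun x => (hasDerivAt_tanh' x).continuousAt

theorem tanh_sq_le_one (x : ℝ) : tanh x ^ 2 ≤ 1 := by
  rw [tanh_eq_sinh_div_cosh, div_pow, div_le_one (pow_pos (cosh_pos x) 2), cosh_sq]
  linarith

theorem abs_tanh_le_one' (x : ℝ) : |tanh x| ≤ 1 :=
  (sq_le_one_iff_abs_le_one _).1 (tanh_sq_le_one x)

theorem abs_tanh_sub_le (a b : ℝ) : |tanh a - tanh b| ≤ |a - b| := by
  have h := lipschitzWith_of_nnnorm_deriv_le (f := tanh) (C := 1)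
    (fun x => (hasDerivAt_tanh' x).differentiableAt) fun x => by
      rw [(hasDerivAt_tanh' x).deriv, ← NNReal.coe_le_coe, coe_nnnorm, norm_eq_abs, NNReal.coe_one,
        abs_le]
      constructor <;> nlinarith [tanh_sq_le_one x, sq_nonneg (tanh x)]
  simpa [Real.dist_eq] using h.dist_le_mul a b

theorem integral_tanh_mul (s : ℝ) : ∫ z, tanh (s * z) ∂gaussianReal 0 1 = 0 := by
  have h : ∫ z, tanh (s * z) ∂gaussianReal 0 1 = ∫ z, tanh (s * -z) ∂gaussianReal 0 1 := by
    conv_lhs => rw [← neg_zero (G := ℝ), ← gaussianReal_map_neg]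
    rw [integral_map (by fun_prop) (by have := continuous_tanh'; fun_prop)]
  have h2 : ∫ z, tanh (s * -z) ∂gaussianReal 0 1 = -∫ z, tanh (s * z) ∂gaussianReal 0 1 := by
    simp [integral_neg]
  linarith

theorem one_sub_mul_pos {U x : ℝ} (hU : U < 1) (hx0 : 0 ≤ x) (hx1 : x ≤ 1) : 0 < 1 - U * x := by
  rcases le_total U 0 with h | h
  · nlinarith [mul_nonpos_of_nonpos_of_nonneg h hx0]
  · nlinarith [mul_le_of_le_one_right h hx1]

/-- Cross term bound. -/
theorem cross_le {k b t z : ℝ} (hk : 0 ≤ k) (hb : k = 0 → b = 0) :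
    b * z * t ≤ k * z ^ 2 / 4 + b ^ 2 * t ^ 2 / k := by
  rcases hk.eq_or_lt with rfl | hk
  · simp [hb rfl]
  · have e : k * z ^ 2 / 4 + b ^ 2 * t ^ 2 / k - b * z * t = (k * z / 2 - b * t) ^ 2 / k := by
      field_simp; ring
    nlinarith [div_nonneg (sq_nonneg (k * z / 2 - b * t)) hk.le]

/-- **Gaussian tilt bound** (`g = s z`, `z` standard normal, `μ = tanh (y + g) - m`): with `U < 1`,
`k ∈ [0,2)`, `u = a s²`, `r = 1 - k/2`, `L = -log (1 - U)`, the multipliers
`lam = L - U² r / (2 s²) - (u - U r)² / (k s²)` and `2 L m` give at most `r^(-1/2) e^(L (1 - m²))`. -/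
theorem gauss_tilt {s a U k : ℝ} (hs : 0 < s) (hU : U < 1) (hk0 : 0 ≤ k) (hk2 : k < 2)
    (hk : k = 0 → U = a * s ^ 2) (y m : ℝ) :
    let lam := -log (1 - U) - U ^ 2 * (1 - k / 2) / (2 * s ^ 2)
      - (a * s ^ 2 - U * (1 - k / 2)) ^ 2 / k / s ^ 2
    let f := fun z => exp (a * (s * z) * (tanh (y + s * z) - m) + lam * (tanh (y + s * z) - m) ^ 2
      + 2 * -log (1 - U) * m * (tanh (y + s * z) - m))
    Integrable f (gaussianReal 0 1) ∧
      ∫ z, f z ∂gaussianReal 0 1
        ≤ exp (-(1 / 2) * log (1 - k / 2) + -log (1 - U) * (1 - m ^ 2)) := by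
  intro lam f
  set r := 1 - k / 2 with hr
  have hr0 : 0 < r := by rw [hr]; linarith
  set c := √r with hc
  have hc0 : 0 < c := sqrt_pos.2 hr0
  have hc2 : c ^ 2 = r := sq_sqrt hr0.le
  set ψ : ℝ → ℝ := fun z => c * z - U * c / s * (tanh (y + s * z) - m) with hψdef
  have hψ : ∀ z, HasDerivAt ψ (c * (1 - U * (1 - tanh (y + s * z) ^ 2))) z := fun z => by
    refine (((hasDerivAt_id z).const_mul c).sub ((((hasDerivAt_tanh' (y + s * z)).comp z
      (((hasDerivAt_id z).const_mul s).const_add y)).sub_const m).const_mul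
      (U * c / s))).congr_deriv ?_
    field_simp
  have hpos : ∀ z, 0 < c * (1 - U * (1 - tanh (y + s * z) ^ 2)) := fun z =>
    mul_pos hc0 (one_sub_mul_pos hU (by linarith [tanh_sq_le_one (y + s * z)])
      (by linarith [sq_nonneg (tanh (y + s * z))]))
  have hinj : Function.Injective ψ := (strictMono_of_hasDerivAt_pos hψ hpos).injective
  set G : ℝ → ℝ := fun z => c * (1 - U * (1 - tanh (y + s * z) ^ 2)) * gaussianPDFReal 0 1 (ψ z)
    with hG
  have hφ : Integrable (gaussianPDFReal 0 1) := integrable_gaussianPDFReal 0 1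
  have himg := integrableOn_image_iff_integrableOn_abs_deriv_smul (s := Set.univ) MeasurableSet.univ
    (fun z _ => (hψ z).hasDerivWithinAt) hinj.injOn (gaussianPDFReal 0 1)
  have heq := integral_image_eq_integral_abs_deriv_smul (s := Set.univ) MeasurableSet.univ
    (fun z _ => (hψ z).hasDerivWithinAt) hinj.injOn (gaussianPDFReal 0 1)
  simp only [abs_of_pos (hpos _), smul_eq_mul] at himg heq
  have hGi : Integrable G := by
    rw [← integrableOn_univ]; exact himg.1 hφ.integrableOn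
  have hG1 : ∫ z, G z ≤ 1 := by
    rw [hG, ← setIntegral_univ, ← heq]
    calc ∫ z in ψ '' Set.univ, gaussianPDFReal 0 1 z ≤ ∫ z, gaussianPDFReal 0 1 z :=
          setIntegral_le_integral hφ (Filter.Eventually.of_forall fun z =>
            gaussianPDFReal_nonneg 0 1 z)
      _ = 1 := integral_gaussianPDFReal_eq_one 0 one_ne_zero
  set C := exp (-(1 / 2) * log r + -log (1 - U) * (1 - m ^ 2)) with hC
  have hpt : ∀ z, gaussianPDFReal 0 1 z * f z ≤ C * G z := fun z => by
    set T := tanh (y + s * z) with hT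
    have hD0 : 0 ≤ 1 - T ^ 2 := by linarith [tanh_sq_le_one (y + s * z)]
    have hD1 : 1 - T ^ 2 ≤ 1 := by linarith [sq_nonneg T]
    have hP := one_sub_mul_pos hU hD0 hD1
    have e1 : exp ((1 - T ^ 2) * log (1 - U)) ≤ 1 - U * (1 - T ^ 2) := by
      rw [← exp_log hP]
      exact exp_le_exp.2 (by linarith [neg_log_one_sub_mul_le hU hD0 hD1])
    have e2 : exp (-(1 / 2) * log r) = 1 / c := by
      rw [hc, show -(1 / 2) * log r = -log √r by rw [log_sqrt hr0.le]; ring, exp_neg,
        exp_log (sqrt_pos.2 hr0), one_div]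
    have hb : k = 0 → a * s - U * r / s = 0 := fun h => by
      have : r = 1 := by rw [hr, h]; norm_num
      rw [hk h, this]; field_simp; ring
    have hx := cross_le (t := T - m) (z := z) hk0 hb
    have hexp : -z ^ 2 / 2 + (a * (s * z) * (T - m) + lam * (T - m) ^ 2
          + 2 * -log (1 - U) * m * (T - m))
        ≤ -(ψ z) ^ 2 / 2 + (-log (1 - U) * (1 - m ^ 2) + (1 - T ^ 2) * log (1 - U)) := by
      have h1 : ψ z = c * z - U * c / s * (T - m) := rfl
      have h2 : (ψ z) ^ 2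
          = r * z ^ 2 - 2 * (U * r / s) * z * (T - m) + U ^ 2 * r / s ^ 2 * (T - m) ^ 2 := by
        rw [h1, ← hc2]; field_simp; ring
      have h3 : lam * (T - m) ^ 2 = -log (1 - U) * (T - m) ^ 2
          - U ^ 2 * r / s ^ 2 * (T - m) ^ 2 / 2 - (a * s - U * r / s) ^ 2 * (T - m) ^ 2 / k := by
        simp only [lam, ← hr]
        field_simp
      rw [h2, h3]
      linear_combination hx + (z ^ 2 / 2) * hr
    have hd : ∀ x : ℝ, gaussianPDFReal 0 1 x = (√(2 * π))⁻¹ * exp (-x ^ 2 / 2) := fun x => by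
      simp [gaussianPDFReal]
    calc gaussianPDFReal 0 1 z * f z
        = (√(2 * π))⁻¹ * exp (-z ^ 2 / 2 + (a * (s * z) * (T - m) + lam * (T - m) ^ 2
          + 2 * -log (1 - U) * m * (T - m))) := by rw [hd, exp_add, mul_assoc]
      _ ≤ (√(2 * π))⁻¹ * exp (-(ψ z) ^ 2 / 2
          + (-log (1 - U) * (1 - m ^ 2) + (1 - T ^ 2) * log (1 - U))) := by gcongr
      _ ≤ (√(2 * π))⁻¹ * exp (-(ψ z) ^ 2 / 2 + -log (1 - U) * (1 - m ^ 2))
          * (1 - U * (1 - T ^ 2)) := by
          rw [← add_assoc, exp_add, ← mul_assoc]; gcongr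
      _ = C * G z := by
          simp only [hG, hd, hC, ← hT]
          rw [exp_add (-(1 / 2) * log r), exp_add, e2]
          field_simp
  have hfi : Integrable (fun z => gaussianPDFReal 0 1 z * f z) := by
    refine (hGi.const_mul C).mono' ?_ (Filter.Eventually.of_forall fun z => ?_)
    · have := continuous_tanh'
      exact (hφ.1.mul (by fun_prop : Continuous f).aestronglyMeasurable)
    · rw [norm_eq_abs, abs_of_nonneg (mul_nonneg (gaussianPDFReal_nonneg _ _ _) (exp_pos _).le)]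
      exact hpt z
  refine ⟨?_, ?_⟩
  · rw [gaussianReal_of_var_ne_zero _ one_ne_zero,
      integrable_withDensity_iff_integrable_smul' (measurable_gaussianPDF 0 1)
        (Filter.Eventually.of_forall fun x => gaussianPDF_lt_top)]
    simpa [toReal_gaussianPDF] using hfi
  · rw [integral_gaussianReal_eq_integral_smul one_ne_zero]
    calc ∫ z, gaussianPDFReal 0 1 z • f z ≤ ∫ z, C * G z := integral_mono hfi (hGi.const_mul C) hpt
      _ = C * ∫ z, G z := integral_const_mul C G
      _ ≤ C * 1 := mul_le_mul_of_nonneg_left hG1 (exp_pos _).le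
      _ = C := mul_one C

/-- With the mean removed by the multiplier only the variance is left, at most `s²`. -/
theorem mean_quad_le {s lam : ℝ} (hl0 : 0 ≤ lam) (y m : ℝ) :
    ∫ z, (lam * (tanh (y + s * z) - m) ^ 2
      + -(2 * lam * ((∫ z, tanh (y + s * z) ∂gaussianReal 0 1) - m)) * (tanh (y + s * z) - m))
      ∂gaussianReal 0 1 ≤ lam * s ^ 2 := by
  set P := gaussianReal 0 1
  set e := ∫ z, tanh (y + s * z) ∂P with he
  set kap := -(2 * lam * (e - m)) with hkap
  have := continuous_tanh'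
  have hTi : Integrable (fun z => tanh (y + s * z)) P :=
    Integrable.of_bound (by fun_prop : Continuous fun z => tanh (y + s * z)).aestronglyMeasurable 1
      (Filter.Eventually.of_forall fun z => abs_tanh_le_one' _)
  set X := fun z => lam * (tanh (y + s * z) - m) ^ 2 + kap * (tanh (y + s * z) - m) with hX
  set t0 := tanh y
  have hsq : Integrable (fun z => (tanh (y + s * z) - t0) ^ 2) P :=
    Integrable.of_bound (by fun_prop : Continuous fun z =>
      (tanh (y + s * z) - t0) ^ 2).aestronglyMeasurable 4 (Filter.Eventually.of_forall fun z => by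
        rw [norm_eq_abs, abs_pow, sq_abs]
        nlinarith [sq_le_sq' (abs_le.1 (abs_tanh_le_one' (y + s * z))).1
          (abs_le.1 (abs_tanh_le_one' (y + s * z))).2, tanh_sq_le_one y,
          sq_nonneg (tanh (y + s * z) + t0), tanh_sq_le_one (y + s * z)])
  have hz2 : ∫ z, z ^ 2 ∂P = 1 := by
    have := variance_id_gaussianReal (μ := 0) (v := 1)
    rw [variance_eq_integral measurable_id.aemeasurable] at this
    simpa [P] using this
  have hz2i : Integrable (fun z => z ^ 2) P := (memLp_id_gaussianReal' 2 (by simp)).integrable_sq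
  have hle : ∫ z, (tanh (y + s * z) - t0) ^ 2 ∂P ≤ s ^ 2 := by
    calc ∫ z, (tanh (y + s * z) - t0) ^ 2 ∂P ≤ ∫ z, s ^ 2 * z ^ 2 ∂P := by
          refine integral_mono hsq (hz2i.const_mul _) fun z => ?_
          show (tanh (y + s * z) - t0) ^ 2 ≤ s ^ 2 * z ^ 2
          rw [← mul_pow, ← sq_abs, ← sq_abs (s * z)]
          refine pow_le_pow_left₀ (abs_nonneg _) ((abs_tanh_sub_le _ _).trans ?_) 2
          simp
      _ = s ^ 2 := by rw [integral_const_mul, hz2, mul_one]
  have heq : ∫ z, X z ∂P = lam * ∫ z, (tanh (y + s * z) - t0) ^ 2 ∂P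
      + (lam * (t0 ^ 2 - 2 * t0 * m + m ^ 2 - 2 * t0 ^ 2 + 2 * t0 * m)
        + (2 * lam * (t0 - m) + kap) * e - kap * m) := by
    have : X = fun z => (lam * (tanh (y + s * z) - t0) ^ 2
        + (2 * lam * (t0 - m) + kap) * tanh (y + s * z)) + (lam * (m ^ 2 - t0 ^ 2) - kap * m) := by
      funext z; simp only [hX]; ring
    have i1 : Integrable (fun z => lam * (tanh (y + s * z) - t0) ^ 2) P := hsq.const_mul lam
    have i2 : Integrable (fun z => (2 * lam * (t0 - m) + kap) * tanh (y + s * z)) P :=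
      hTi.const_mul _
    have i3 : Integrable (fun z => lam * (tanh (y + s * z) - t0) ^ 2
        + (2 * lam * (t0 - m) + kap) * tanh (y + s * z)) P := i1.add i2
    rw [this]
    dsimp only
    rw [integral_add i3 (integrable_const _), integral_add i1 i2, integral_const_mul,
      integral_const_mul, integral_const, ← he]
    simp
    ring
  rw [heq]
  have := mul_le_mul_of_nonneg_left hle hl0
  simp only [kap]
  nlinarith [mul_nonneg hl0 (sq_nonneg (e - m)), mul_nonneg hl0 (sq_nonneg (e - t0))]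

/-- Small tilts: the mean is removed by the multiplier, the variance by Lipschitz continuity. -/
theorem gauss_small {s a lam : ℝ} (hs : 0 ≤ s) (hs1 : s ≤ 1) (hl0 : 0 ≤ lam) (hl : lam ≤ 1 / 24)
    (ha : |a| ≤ 1) (y m : ℝ) (hm : |m| ≤ 1) :
    let kap := -(2 * lam * ((∫ z, tanh (y + s * z) ∂gaussianReal 0 1) - m))
    let f := fun z => exp (a * (s * z) * (tanh (y + s * z) - m) + lam * (tanh (y + s * z) - m) ^ 2
      + kap * (tanh (y + s * z) - m))
    |kap| ≤ 4 * lam ∧ Integrable f (gaussianReal 0 1) ∧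
      ∫ z, f z ∂gaussianReal 0 1 ≤ exp (lam * s ^ 2 + 288 * lam ^ 2 + exp 8 * |a|) := by
  set P := gaussianReal 0 1
  intro kap f
  set e := ∫ z, tanh (y + s * z) ∂P with he
  have hcT : Continuous fun z => tanh (y + s * z) := by
    have := continuous_tanh'; fun_prop
  have hTi : Integrable (fun z => tanh (y + s * z)) P :=
    Integrable.of_bound hcT.aestronglyMeasurable 1
      (Filter.Eventually.of_forall fun z => abs_tanh_le_one' _)
  have he1 : |e| ≤ 1 := by
    have := norm_integral_le_of_norm_le_const (μ := P)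
      (Filter.Eventually.of_forall fun z => (norm_eq_abs _).le.trans (abs_tanh_le_one' (y + s * z)))
    simpa using this
  have hkap : |kap| ≤ 4 * lam := by
    have hh : |e - m| ≤ 2 := (abs_sub _ _).trans (by linarith)
    simp only [kap, ← he, abs_neg, abs_mul, abs_of_nonneg hl0, abs_two]
    nlinarith
  refine ⟨hkap, ?_⟩
  set X := fun z => lam * (tanh (y + s * z) - m) ^ 2 + kap * (tanh (y + s * z) - m) with hX
  have hmu : ∀ z, |tanh (y + s * z) - m| ≤ 2 := fun z =>
    (abs_sub _ _).trans (by linarith [abs_tanh_le_one' (y + s * z)])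
  have hXb : ∀ z, |X z| ≤ 12 * lam := fun z => by
    refine (abs_add_le _ _).trans ?_
    rw [abs_mul, abs_mul, abs_of_nonneg hl0, abs_pow, sq_abs]
    have h1 := sq_le_sq' (abs_le.1 (hmu z)).1 (abs_le.1 (hmu z)).2
    nlinarith [mul_le_mul hkap (hmu z) (abs_nonneg _) (by linarith)]
  have hXi : Integrable X P :=
    Integrable.of_bound (by fun_prop : Continuous X).aestronglyMeasurable _
      (Filter.Eventually.of_forall hXb)
  set M := fun z : ℝ => exp (4 * s * z) + exp (-(4 * s) * z)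
  have hMi : Integrable M P :=
    (integrable_exp_mul_gaussianReal (4 * s)).add (integrable_exp_mul_gaussianReal (-(4 * s)))
  have hM : ∫ z, M z ∂P ≤ 2 * exp 8 := by
    have hg : ∀ t : ℝ, ∫ z, exp (t * z) ∂P = exp (t ^ 2 / 2) := fun t => by
      have := congrFun (mgf_fun_id_gaussianReal (μ := 0) (v := 1)) t
      simpa [mgf] using this
    show ∫ z, exp (4 * s * z) + exp (-(4 * s) * z) ∂P ≤ _
    rw [integral_add (integrable_exp_mul_gaussianReal _) (integrable_exp_mul_gaussianReal _),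
      hg, hg]
    have : exp ((4 * s) ^ 2 / 2) ≤ exp 8 := exp_le_exp.2 (by nlinarith)
    rw [neg_sq]
    linarith
  set S := fun z => 1 + X z + 288 * lam ^ 2 + |a| / 2 * M z
  have hSi : Integrable S P :=
    (((integrable_const (1 : ℝ)).add hXi).add (integrable_const (288 * lam ^ 2))).add
      (hMi.const_mul (|a| / 2))
  have hpt : ∀ z, f z ≤ S z := fun z => by
    set Y := a * (s * z) * (tanh (y + s * z) - m) with hY
    have h1 : f z = exp (Y + X z) := by simp only [f, hX, hY, add_assoc]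
    have h2 : ∀ b c : ℝ, exp (b + c) ≤ (exp (2 * b) + exp (2 * c)) / 2 := fun b c => by
      rw [exp_add, two_mul b, two_mul c, exp_add, exp_add]
      nlinarith [sq_nonneg (exp b - exp c)]
    have h2' := h2 Y (X z)
    have h3 : exp (2 * X z) ≤ 1 + 2 * X z + 576 * lam ^ 2 := by
      have hb : |2 * X z| ≤ 1 := by rw [abs_mul, abs_two]; linarith [hXb z]
      have := (abs_le.1 (abs_exp_sub_one_sub_id_le hb)).2
      have : (X z) ^ 2 ≤ (12 * lam) ^ 2 := sq_le_sq' (abs_le.1 (hXb z)).1 (abs_le.1 (hXb z)).2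
      nlinarith
    have h4 : exp (2 * Y) ≤ 1 + |a| * M z := by
      have hM0 : exp (4 * |s * z|) ≤ M z := by
        rcases abs_cases (s * z) with ⟨h, -⟩ | ⟨h, -⟩
        · have : 4 * |s * z| = 4 * s * z := by rw [h]; ring
          rw [this]; simp only [M]; linarith [exp_pos (-(4 * s) * z)]
        · have : 4 * |s * z| = -(4 * s) * z := by rw [h]; ring
          rw [this]; simp only [M]; linarith [exp_pos (4 * s * z)]
      have hYb : 2 * Y ≤ |a| * (4 * |s * z|) := by
        have : |2 * Y| ≤ |a| * (4 * |s * z|) := by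
          rw [hY, abs_mul, abs_mul, abs_mul, abs_two]
          nlinarith [mul_le_mul_of_nonneg_left (hmu z)
            (mul_nonneg (abs_nonneg a) (abs_nonneg (s * z)))]
        linarith [le_abs_self (2 * Y)]
      have hc := convexOn_exp.2 (Set.mem_univ (4 * |s * z|)) (Set.mem_univ (0 : ℝ))
        (abs_nonneg a) (sub_nonneg.2 ha) (by ring)
      simp only [smul_eq_mul, mul_zero, add_zero, exp_zero, mul_one] at hc
      nlinarith [exp_le_exp.2 hYb, mul_le_mul_of_nonneg_left hM0 (abs_nonneg a), abs_nonneg a]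
    simp only [S]
    linarith
  have hfi : Integrable f P := by
    refine hSi.mono' ?_ (Filter.Eventually.of_forall fun z => ?_)
    · exact (by fun_prop : Continuous f).aestronglyMeasurable
    · rw [norm_eq_abs, abs_of_nonneg (exp_pos _).le]; exact hpt z
  refine ⟨hfi, ?_⟩
  have hvar : ∫ z, X z ∂P ≤ lam * s ^ 2 := mean_quad_le (s := s) hl0 y m
  have hint : ∫ z, S z ∂P = 1 + (∫ z, X z ∂P) + 288 * lam ^ 2 + |a| / 2 * ∫ z, M z ∂P := by
    have j1 : Integrable (fun z => 1 + X z) P := (integrable_const (1 : ℝ)).add hXi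
    have j2 : Integrable (fun z => 1 + X z + 288 * lam ^ 2) P :=
      j1.add (integrable_const (288 * lam ^ 2))
    have j3 : Integrable (fun z => |a| / 2 * M z) P := hMi.const_mul _
    simp only [S]
    rw [integral_add j2 j3, integral_add j1 (integrable_const _),
      integral_add (integrable_const _) hXi]
    simp [integral_const_mul]
  calc ∫ z, f z ∂P ≤ ∫ z, S z ∂P := integral_mono hfi hSi hpt
    _ ≤ lam * s ^ 2 + 288 * lam ^ 2 + exp 8 * |a| + 1 := by
      rw [hint]; nlinarith [mul_le_mul_of_nonneg_left hM (abs_nonneg a)]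
    _ ≤ exp (lam * s ^ 2 + 288 * lam ^ 2 + exp 8 * |a|) := add_one_le_exp _

/-- What the counting step needs for one value of `(th, d, p, a)`; at zero field (`y = m = 0`) no
multiplier is used. -/
def SiteBound (th d p a c B : ℝ) : Prop :=
  ∃ (lam al gm : ℝ) (kap : ℝ → ℝ → ℝ),
    |lam| ≤ B ∧ |al| ≤ B ∧ |gm| ≤ B ∧ kap 0 0 = 0 ∧
    al + gm * (p + d) - lam * d - a * (th ^ 2 * d) * p - (a * (th ^ 2 * d)) ^ 2 / th ^ 2 ≤ -c ∧
    ∀ y m : ℝ, |m| ≤ 1 → |kap m y| ≤ B ∧
      Integrable (fun z => exp (a * (th * √d * z) * (tanh (y + th * √d * z) - m)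
        + lam * (tanh (y + th * √d * z) - m) ^ 2 + kap m y * (tanh (y + th * √d * z) - m)))
        (gaussianReal 0 1) ∧
      ∫ z, exp (a * (th * √d * z) * (tanh (y + th * √d * z) - m)
        + lam * (tanh (y + th * √d * z) - m) ^ 2 + kap m y * (tanh (y + th * √d * z) - m))
        ∂gaussianReal 0 1 ≤ exp (al + gm * (1 - m ^ 2))

theorem SiteBound.mono {th d p a c c' B B' : ℝ} (h : SiteBound th d p a c B) (hc : c' ≤ c)
    (hB : B ≤ B') : SiteBound th d p a c' B' := by
  obtain ⟨lam, al, gm, kap, h1, h2, h3, h0, h4, h5⟩ := h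
  exact ⟨lam, al, gm, kap, h1.trans hB, h2.trans hB, h3.trans hB, h0, h4.trans (neg_le_neg hc),
    fun y m hm => ⟨(h5 y m hm).1.trans hB, (h5 y m hm).2⟩⟩

theorem sgn_bounds {th d p a : ℝ} (hth : 0 < th) (hth1 : th ≤ 1) (hd : 0 < d) (hd1 : d ≤ 1)
    (hp : 0 ≤ p) (hp1 : p ≤ 1) :
    |a * (th ^ 2 * d)| ≤ |a| ∧ -(a * (th ^ 2 * d) * p) ≤ |a| := by
  have h0 : th ^ 2 * d ≤ 1 := mul_le_one₀ (pow_le_one₀ hth.le hth1) hd.le hd1
  have h1 : |a * (th ^ 2 * d)| ≤ |a| := by
    rw [abs_mul, abs_of_pos (by positivity : 0 < th ^ 2 * d)]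
    exact mul_le_of_le_one_right (abs_nonneg a) h0
  refine ⟨h1, (neg_le_abs _).trans ?_⟩
  rw [abs_mul, abs_of_nonneg hp]
  exact (mul_le_of_le_one_right (abs_nonneg _) hp1).trans h1

/-- Tilts near zero. -/
theorem offset_small {th d p a η : ℝ} (hth : 0 < th) (hth1 : th ≤ 1) (hd : 0 < d) (hd1 : d ≤ 1)
    (hp : 0 ≤ p) (hp1 : p ≤ 1) (hη0 : 0 < η) (hη1 : η ≤ 1) (hgap : η ≤ d - th ^ 2 * d)
    (ha : (exp 8 + 1) * |a| ≤ η ^ 2 / 2304) :
    SiteBound th d p a (η ^ 2 / 2304) 4 := by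
  have he8 := exp_pos 8
  have ha1 : |a| ≤ 1 := by nlinarith [abs_nonneg a]
  have hs2 : (th * √d) ^ 2 = th ^ 2 * d := by rw [mul_pow, sq_sqrt hd.le]
  have hsd : th * √d ≤ 1 := mul_le_one₀ hth1 (sqrt_nonneg d) (sqrt_le_one.2 hd1)
  obtain ⟨hu, hup⟩ := sgn_bounds (a := a) hth hth1 hd hd1 hp hp1
  set l0 := η / 576 with hl0
  have hl00 : 0 ≤ l0 := by rw [hl0]; positivity
  have hl01 : l0 ≤ 1 / 576 := by rw [hl0]; linarith
  have hs1 : (th * √d) ^ 2 ≤ 1 := pow_le_one₀ (mul_nonneg hth.le (sqrt_nonneg d)) hsd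
  have hη2 : η ^ 2 ≤ 1 := pow_le_one₀ hη0.le hη1
  refine ⟨l0, l0 * (th * √d) ^ 2 + 288 * l0 ^ 2 + exp 8 * |a|, 0,
    fun m y => -(2 * l0 * ((∫ z, tanh (y + th * √d * z) ∂gaussianReal 0 1) - m)),
    ?_, ?_, by simp, ?_, ?_, fun y m hm => ?_⟩
  · rw [abs_of_nonneg hl00]; linarith
  · rw [abs_of_nonneg (by positivity)]
    nlinarith [mul_le_mul_of_nonneg_left hs1 hl00, abs_nonneg a]
  · simp [integral_tanh_mul]
  · have hsq : 0 ≤ (a * (th ^ 2 * d)) ^ 2 / th ^ 2 := by positivity
    have hgain : η * l0 ≤ l0 * d - l0 * (th ^ 2 * d) := by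
      linarith [mul_le_mul_of_nonneg_left hgap hl00]
    rw [hs2]
    rw [hl0] at hgain ⊢
    linarith [show (η / 576) ^ 2 = η ^ 2 / 331776 by ring, show η * (η / 576) = η ^ 2 / 576 by ring]
  · obtain ⟨k1, k2, k3⟩ := gauss_small (lam := l0) (mul_nonneg hth.le (sqrt_nonneg d)) hsd hl00
      (by linarith) ha1 y m hm
    exact ⟨k1.trans (by linarith), k2, by simpa using k3⟩

/-- Tilts away from zero. -/
theorem offset_big {th0 β d0 A th d p a a0 : ℝ} (h0 : 0 < th0) (hb : β < 1) (h1 : th0 ≤ th)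
    (h2 : th ≤ β) (hd0 : 0 < d0) (h3 : d0 ≤ d) (h4 : d ≤ 1) (hp : 0 ≤ p) (hp1 : p ≤ 1)
    (ha : |a| ≤ A) (ha0 : 0 < a0) (haa : a0 ≤ |a|) :
    SiteBound th d p a ((1 - β) / 4000 * min ((a0 * (th0 ^ 2 * d0)) ^ 2) 1)
      ((A + 3) * 2 + (A + A ^ 2 / th0 ^ 2 + (A + 3)) * (1 + 1 / d0)) := by
  have hth0 : 0 < th := h0.trans_le h1
  have hd : 0 < d := hd0.trans_le h3
  have hA : 0 ≤ A := (abs_nonneg a).trans ha
  have ha' : a ≠ 0 := fun h => by rw [h, abs_zero] at haa; linarith
  have hs2 : (th * √d) ^ 2 = th ^ 2 * d := by rw [mul_pow, sq_sqrt hd.le]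
  have hs : 0 < th * √d := mul_pos hth0 (sqrt_pos.2 hd)
  obtain ⟨hu, -⟩ := sgn_bounds (a := a) hth0 (by linarith : th ≤ 1) hd h4 hp hp1
  rw [← hs2] at hu
  set u := a * (th * √d) ^ 2 with hudef
  have hu0 : u ≠ 0 := mul_ne_zero ha' (pow_pos hs 2).ne'
  have hua : |u| ≤ A := hu.trans ha
  obtain ⟨U, k, hUl, hUu, hk0, hk2, hk, hV⟩ := scalarB (q := 1 - p) hth0 (by linarith : th < 1)
    (by linarith) (by linarith) hu0
  have hU1 : 0 < 1 - U := by linarith
  set L := -log (1 - U) with hL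
  have hLb : |L| ≤ A + 3 := by
    rw [hL, abs_neg, abs_le]
    constructor
    · have := one_sub_inv_le_log_of_pos hU1
      have : (1 - U)⁻¹ ≤ 4 := by rw [inv_le_iff_one_le_mul₀ hU1]; linarith
      linarith
    · linarith [log_le_sub_one_of_pos hU1, (abs_le.1 hua).2]
  set r := 1 - k / 2 with hr
  have hr0 : 0 ≤ r := by rw [hr]; linarith
  have hlr : log r ≤ 0 := log_nonpos hr0 (by rw [hr]; linarith)
  set Q := (U ^ 2 * r / 2 + (u - U * r) ^ 2 / k) / th ^ 2 with hQ
  have hQ0 : 0 ≤ Q := by positivity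
  have hmin : (1 - β) / 4000 * min ((a0 * (th0 ^ 2 * d0)) ^ 2) 1
      ≤ (1 - th) / 4000 * min (u ^ 2) 1 := by
    refine mul_le_mul (by linarith) (min_le_min ?_ le_rfl) (le_min (by positivity) one_pos.le)
      (by linarith)
    rw [← sq_abs u, hudef, hs2, abs_mul, abs_of_pos (by positivity : 0 < th ^ 2 * d)]
    gcongr
  set M := A + A ^ 2 / th0 ^ 2 + (A + 3) with hM
  have hu2 : u ^ 2 / th ^ 2 ≤ A ^ 2 / th0 ^ 2 := by
    rw [← sq_abs u]; gcongr
  have hup : u * p ≤ A :=
    (le_abs_self _).trans (by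
      rw [abs_mul, abs_of_nonneg hp]; exact (mul_le_of_le_one_right (abs_nonneg u) hp1).trans hua)
  have hpL : -(p * L) ≤ A + 3 :=
    (neg_le_abs _).trans (by
      rw [abs_mul, abs_of_nonneg hp]; exact (mul_le_of_le_one_left (abs_nonneg L) hp1).trans hLb)
  have hV' : -(1 / 2) * log r + p * L + Q - u * p - u ^ 2 / th ^ 2
      ≤ -((1 - th) / 4000 * min (u ^ 2) 1) := by
    simp only [V, sub_sub_cancel] at hV
    simp only [hL, hQ, hr]
    linarith
  have hc0 : 0 ≤ (1 - th) / 4000 * min (u ^ 2) 1 :=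
    mul_nonneg (by linarith) (le_min (sq_nonneg u) one_pos.le)
  have hQM : Q ≤ M := by linarith
  have hlM : -(1 / 2) * log r ≤ M := by linarith
  have hM0 : 0 ≤ M := hQ0.trans hQM
  have hMd : 0 ≤ M * (1 / d0) := by positivity
  set lam := L - U ^ 2 * r / (2 * (th * √d) ^ 2) - (u - U * r) ^ 2 / k / (th * √d) ^ 2 with hlam
  have hlamQ : L - lam = Q / d := by
    rw [hQ, hlam, hs2]; field_simp; ring
  have hlam1 : 0 ≤ L - lam ∧ L - lam ≤ M * (1 / d0) := by
    rw [hlamQ]
    exact ⟨by positivity, by rw [mul_one_div]; gcongr⟩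
  refine ⟨lam, -(1 / 2) * log r, L, fun m _ => 2 * L * m, ?_, ?_, ?_, by simp, ?_, fun y m hm => ?_⟩
  · rw [abs_le]
    constructor <;> linarith [abs_le.1 hLb]
  · rw [abs_le]
    constructor <;> linarith
  · linarith
  · rw [← hs2, ← hudef]
    have e : L * (p + d) - lam * d = p * L + Q := by
      rw [show Q = (L - lam) * d by rw [hlamQ]; field_simp]; ring
    linarith
  · refine ⟨?_, gauss_tilt hs (by linarith) hk0 hk2 hk y m⟩
    have h9 : |2 * L * m| ≤ 2 * (A + 3) := by
      rw [abs_mul, abs_mul, abs_two]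
      have := mul_le_mul hLb hm (abs_nonneg m) (by linarith)
      linarith
    linarith

/-- **Scalar input of the counting step**: on compact parameter ranges there are bounded multipliers
for which every site contributes at most `exp (al + gm (1 - m²))` and the total exponent is `≤ -c`.
Here `d = |μ|²/n`, `p` is the paper's `s'` and `u = a th² d`. -/
theorem offset_scalar {th0 β d0 A : ℝ} (h0 : 0 < th0) (hb1 : β < 1) (hd0 : 0 < d0) (hd1 : d0 ≤ 1)
    (hA : 0 ≤ A) :
    ∃ c > 0, ∃ B : ℝ, ∀ th d p a : ℝ, th0 ≤ th → th ≤ β → d0 ≤ d → d ≤ 1 → 0 ≤ p → p ≤ 1 →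
      |a| ≤ A → SiteBound th d p a c B := by
  by_cases hth : th0 ≤ β
  swap
  · exact ⟨1, one_pos, 0, fun th d p a h1 h2 => absurd (h1.trans h2) hth⟩
  have hb0 : 0 < β := h0.trans_le hth
  set η := (1 - β ^ 2) * d0 with hη
  have hβ2 : β ^ 2 < 1 := by nlinarith
  have hη0 : 0 < η := mul_pos (by linarith) hd0
  have hη1 : η ≤ 1 := mul_le_one₀ (by linarith [sq_nonneg β]) hd0.le hd1
  set a0 := η ^ 2 / (2304 * (exp 8 + 1)) with ha0
  have ha0p : 0 < a0 := by rw [ha0]; positivity
  set κ0 := (1 - β) / 4000 * min ((a0 * (th0 ^ 2 * d0)) ^ 2) 1 with hκ0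
  have hκ0p : 0 < κ0 := mul_pos (by linarith) (lt_min (by positivity) one_pos)
  refine ⟨min κ0 (η ^ 2 / 2304), lt_min hκ0p (by positivity),
    (A + 3) * 2 + (A + A ^ 2 / th0 ^ 2 + (A + 3)) * (1 + 1 / d0), ?_⟩
  intro th d p a h1 h2 h3 h4 h5 h6 ha
  by_cases hsm : |a| ≤ a0
  · refine (offset_small (η := η) (h0.trans_le h1) (by linarith) (hd0.trans_le h3) h4 h5 h6 hη0 hη1
      ?_ ?_).mono (min_le_right _ _) ?_
    · have h7 : th ^ 2 ≤ β ^ 2 := pow_le_pow_left₀ (h0.trans_le h1).le h2 2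
      rw [hη]; nlinarith
    · calc (exp 8 + 1) * |a| ≤ (exp 8 + 1) * a0 := by gcongr
        _ = η ^ 2 / 2304 := by rw [ha0]; field_simp
    · have : 0 ≤ (A + A ^ 2 / th0 ^ 2 + (A + 3)) * (1 + 1 / d0) := by positivity
      linarith
  · exact (offset_big h0 hb1 h1 h2 hd0 h3 h4 h5 h6 ha ha0p (le_of_not_ge hsm)).mono
      (min_le_left _ _) le_rfl

end Vale.Agent.P150.Full.ScalarB
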