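import Mathlib

/-!
# P150: scalar core of inequality B

Elementary negativity, with a margin, of the scalar exponent `V` for every `th < 1`.
The Gaussian tilt bound that produces `V` is in `ScalarOffset`.
-/

open MeasureTheory ProbabilityTheory Real

namespace Vale.Agent.P150.Full.ScalarB

/-- The scalar exponent obtained from the tilt bound with parameters `U`, `k`. -/
noncomputable def V (th q u U k : ℝ) : ℝ :=
  -(1 / 2) * log (1 - k / 2) - (1 - q) * log (1 - U)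
    + (U ^ 2 * (1 - k / 2) / 2 + (u - U * (1 - k / 2)) ^ 2 / k) / th ^ 2
    - u * (1 - q) - u ^ 2 / th ^ 2

/-- The exponent at `th = 1`, constant part. -/
noncomputable def R (w W k : ℝ) : ℝ :=
  -(1 / 2) * log (1 - k / 2) + W ^ 2 * (1 - k / 2) / 2 + (w - W * (1 - k / 2)) ^ 2 / k - w ^ 2

/-- The exponent at `th = 1`, slope in `x = (1 - q) th`. -/
noncomputable def S (w W : ℝ) : ℝ := -log (1 - W) - w

theorem neg_log_one_sub_mul_le {U x : ℝ} (hU : U < 1) (hx0 : 0 ≤ x) (hx1 : x ≤ 1) :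
    -log (1 - U * x) ≤ -(x * log (1 - U)) := by
  have h := rpow_one_add_le_one_add_mul_self (s := -U) (by linarith) hx0 hx1
  have hp : 0 < (1 - U) ^ x := rpow_pos_of_pos (by linarith) x
  rw [show (1 : ℝ) + -U = 1 - U by ring] at h
  have := log_le_log hp h
  rw [log_rpow (by linarith)] at this
  rw [show (1 : ℝ) + x * -U = 1 - U * x by ring] at this
  linarith

theorem neg_log_one_sub_le {v : ℝ} (hv0 : 0 ≤ v) (hv1 : v < 1) (n : ℕ) :
    -log (1 - v) ≤ (∑ i ∈ Finset.range n, v ^ (i + 1) / (i + 1))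
      + v ^ (n + 1) / ((n + 1) * (1 - v)) := by
  have h := (hasSum_nat_add_iff' n).2
    (hasSum_pow_div_log_of_abs_lt_one (by rwa [abs_of_nonneg hv0]))
  have hg := (hasSum_geometric_of_lt_one hv0 hv1).mul_left (v ^ (n + 1) / (n + 1))
  have := hasSum_le (fun i => ?_) h hg
  · rw [← div_eq_mul_inv, div_div] at this
    linarith
  · have e : v ^ (n + 1) / (n + 1) * v ^ i = v ^ (i + n + 1) / (n + 1) := by
      rw [show i + n + 1 = (n + 1) + i by ring, pow_add]; ring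
    rw [e]
    apply div_le_div_of_nonneg_left (pow_nonneg hv0 _) (by positivity)
    push_cast
    linarith [Nat.cast_nonneg (α := ℝ) i]

theorem V_le_scaled {th q w W k : ℝ} (h0 : 0 < th) (h1 : th < 1) (hq : q ≤ 1) (hW : W < 1) :
    V th q (th * w) (th * W) k ≤ R w W k + (1 - q) * th * S w W := by
  have hl := neg_log_one_sub_mul_le hW h0.le h1.le
  have e : V th q (th * w) (th * W) k
      = R w W k + (1 - q) * (-log (1 - W * th) - th * w) := by
    have : (((th * W) ^ 2 * (1 - k / 2) / 2 + (th * w - th * W * (1 - k / 2)) ^ 2 / k) / th ^ 2)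
        = W ^ 2 * (1 - k / 2) / 2 + (w - W * (1 - k / 2)) ^ 2 / k := by
      rw [div_eq_iff (by positivity)]; ring
    have : (th * w) ^ 2 / th ^ 2 = w ^ 2 := by
      rw [div_eq_iff (by positivity)]; ring
    simp only [V, R]
    rw [show th * W = W * th by ring] at *
    nlinarith
  rw [e, mul_assoc]
  refine add_le_add le_rfl (mul_le_mul_of_nonneg_left ?_ (by linarith))
  simp only [S]
  linarith

theorem neg_case {th q u : ℝ} (h0 : 0 < th) (h1 : th < 1) (hq0 : 0 ≤ q) (hq : q ≤ 1)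
    (hu : u < 0) : V th q u u 0 ≤ -((1 - th) / 2) * u ^ 2 := by
  have h := le_log_one_add_of_nonneg (x := -u) (by linarith)
  have hs : -u - u ^ 2 / 2 ≤ 2 * -u / (-u + 2) := by
    rw [le_div_iff₀ (by linarith)]
    nlinarith
  have hg : -log (1 - u) - u ≤ u ^ 2 / 2 := by
    rw [show (1 : ℝ) + -u = 1 - u by ring] at h
    linarith
  have e : V th q u u 0 = (1 - q) * (-log (1 - u) - u) - u ^ 2 / (2 * th ^ 2) := by
    simp [V]; field_simp; ring
  rw [e]
  have hc : (2 - th) * u ^ 2 / 2 ≤ u ^ 2 / (2 * th ^ 2) := by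
    rw [le_div_iff₀ (by positivity)]
    have : (2 - th) * th ^ 2 ≤ 1 := by
      nlinarith [mul_nonneg (sub_nonneg.2 h1.le) (by nlinarith : 0 ≤ 1 + th - th ^ 2)]
    nlinarith [sq_nonneg u]
  nlinarith [mul_le_mul_of_nonneg_left hg (by linarith : (0 : ℝ) ≤ 1 - q), sq_nonneg u]

theorem small_poly {w : ℝ} (h0 : 0 ≤ w) (h1 : w ≤ 1 / 2) :
    ((1 / 2) * ((w - w ^ 2 / 2) + (w - w ^ 2 / 2) ^ 2 / 2 + (w - w ^ 2 / 2) ^ 3 / 3
        + (w - w ^ 2 / 2) ^ 4 / 4 + 8 * (w - w ^ 2 / 2) ^ 5 / 25)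
      + w / 2 - 3 / 4 * w ^ 2 + w ^ 3 / 8 + w ^ 4 / 12)
      * (w ^ 2 / 2 + w ^ 3 / 3 + w ^ 4 / 4 + 2 * w ^ 5 / 5)
      - w ^ 3 / 2 ≤ -(w ^ 4 / 1000) := by
  have key : -1 / 24 + w / 48 + 341 / 1440 * w ^ 2 - 1909 / 7200 * w ^ 3 - 133 / 1600 * w ^ 4
      + 389 / 3600 * w ^ 5 - 2681 / 96000 * w ^ 6 - 461 / 9600 * w ^ 7 + 3883 / 38400 * w ^ 8
      - 317 / 4800 * w ^ 9 + 3 / 160 * w ^ 10 - 1 / 500 * w ^ 11 ≤ -(1 / 1000) := by
    have p3 : (0 : ℝ) ≤ w ^ 3 := by positivity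
    have c : -1 / 24 + w / 48 + 341 / 1440 * w ^ 2 - 1909 / 7200 * w ^ 3 ≤ -(1 / 1000) := by
      nlinarith [mul_nonneg h0 (sub_nonneg.2 h1), pow_le_pow_left₀ h0 h1 2,
        mul_nonneg (mul_nonneg h0 h0) (sub_nonneg.2 h1)]
    have a5 : w ^ 5 ≤ w ^ 4 / 2 := by nlinarith [pow_nonneg h0 4]
    have a8 : w ^ 8 ≤ w ^ 4 / 16 := by
      nlinarith [pow_le_pow_left₀ h0 h1 4, pow_nonneg h0 4]
    have a10 : w ^ 10 ≤ w ^ 4 / 64 := by
      nlinarith [pow_le_pow_left₀ h0 h1 6, pow_nonneg h0 4]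
    nlinarith [pow_nonneg h0 4, pow_nonneg h0 6, pow_nonneg h0 7, pow_nonneg h0 9,
      pow_nonneg h0 11]
  have := mul_le_mul_of_nonneg_left key (pow_nonneg h0 4)
  nlinarith [this]

theorem g_bounds {w : ℝ} (hw : 0 < w) (hw2 : w ≤ 1 / 2) :
    0 < -log (1 - w) - w ∧
    -log (1 - w) - w ≤ w ^ 2 / 2 + w ^ 3 / 3 + w ^ 4 / 4 + 2 * w ^ 5 / 5 ∧
    -log (1 - w) - w ≤ w ^ 2 / 2 * (1 + 6 / 5 * w) := by
  have h0 := log_lt_sub_one_of_pos (by linarith : (0 : ℝ) < 1 - w) (by linarith)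
  have hl := neg_log_one_sub_le hw.le (by linarith : w < 1) 4
  simp only [Finset.sum_range_succ, Finset.sum_range_zero] at hl
  norm_num at hl
  have t : w ^ 5 / (5 * (1 - w)) ≤ 2 * w ^ 5 / 5 := by
    rw [div_le_div_iff₀ (by linarith) (by norm_num)]
    nlinarith [pow_nonneg hw.le 5]
  have e4 : w ^ 4 ≤ w ^ 3 / 2 := by nlinarith [pow_nonneg hw.le 3]
  have e5 : w ^ 5 ≤ w ^ 3 / 4 := by nlinarith [pow_nonneg hw.le 4]
  refine ⟨by linarith, by linarith, ?_⟩
  rw [show w ^ 2 / 2 * (1 + 6 / 5 * w) = w ^ 2 / 2 + 3 / 5 * w ^ 3 by ring]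
  linarith [pow_nonneg hw.le 3]

/-- Upper bound for the second line's constant. -/
noncomputable def H (w : ℝ) : ℝ :=
  (1 / 2) * ((w - w ^ 2 / 2) + (w - w ^ 2 / 2) ^ 2 / 2 + (w - w ^ 2 / 2) ^ 3 / 3
      + (w - w ^ 2 / 2) ^ 4 / 4 + 8 * (w - w ^ 2 / 2) ^ 5 / 25)
    + w / 2 - 3 / 4 * w ^ 2 + w ^ 3 / 8 + w ^ 4 / 12

theorem h_bounds {w : ℝ} (hw : 0 < w) (hw2 : w ≤ 1 / 2) :
    0 ≤ H w ∧ R w 0 (2 * w - w ^ 2) ≤ H w := by
  have hv : (2 * w - w ^ 2) / 2 = w - w ^ 2 / 2 := by ring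
  have hv0 : 0 ≤ w - w ^ 2 / 2 := by nlinarith
  have hv1 : w - w ^ 2 / 2 ≤ 3 / 8 := by nlinarith
  constructor
  · have : 0 ≤ w / 2 - 3 / 4 * w ^ 2 := by nlinarith
    have : 0 ≤ (1 / 2) * ((w - w ^ 2 / 2) + (w - w ^ 2 / 2) ^ 2 / 2 + (w - w ^ 2 / 2) ^ 3 / 3
        + (w - w ^ 2 / 2) ^ 4 / 4 + 8 * (w - w ^ 2 / 2) ^ 5 / 25) + w ^ 3 / 8 + w ^ 4 / 12 := by
      positivity
    simp only [H]
    linarith
  have := neg_log_one_sub_le hv0 (by linarith : w - w ^ 2 / 2 < 1) 4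
  simp only [Finset.sum_range_succ, Finset.sum_range_zero] at this
  norm_num at this
  have t : (w - w ^ 2 / 2) ^ 5 / (5 * (1 - (w - w ^ 2 / 2))) ≤ 8 * (w - w ^ 2 / 2) ^ 5 / 25 := by
    rw [div_le_div_iff₀ (by linarith) (by norm_num)]
    nlinarith [pow_nonneg hv0 5]
  have t2 : w ^ 2 / (2 * w - w ^ 2) ≤ w / 2 + w ^ 2 / 4 + w ^ 3 / 8 + w ^ 4 / 12 := by
    rw [div_le_iff₀ (by nlinarith)]
    nlinarith [pow_nonneg hw.le 5, mul_le_mul_of_nonneg_left hw2 (pow_nonneg hw.le 5)]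
  simp only [R, H, hv]
  norm_num
  linarith

theorem crossing {th w x η g : ℝ} (h0 : 0 < th) (h1 : th < 1) (hw : 0 < w)
    (hη : η = (1 - th) / 2000) (hx : x ≤ th) (hg0 : 0 < g)
    (hg2 : g ≤ w ^ 2 / 2 * (1 + 6 / 5 * w)) (hc : (1 - η) * w ^ 2 / 2 < x * g) :
    1 - th ≤ 2 * w := by
  have h5 : (1 - η) * (w ^ 2 / 2) < th * (1 + 6 / 5 * w) * (w ^ 2 / 2) := by
    linarith [mul_le_mul hx hg2 hg0.le h0.le,
      show (1 - η) * (w ^ 2 / 2) = (1 - η) * w ^ 2 / 2 by ring,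
      show th * (1 + 6 / 5 * w) * (w ^ 2 / 2) = th * (w ^ 2 / 2 * (1 + 6 / 5 * w)) by ring]
  have h6 := lt_of_mul_lt_mul_right h5 (by positivity)
  rw [hη] at h6
  by_contra hlt
  push Not at hlt
  nlinarith [mul_lt_mul_of_pos_left hlt h0]

theorem second_line {th w x η g h : ℝ} (hw : 0 < w) (hη : η = (1 - th) / 2000)
    (hwth : 1 - th ≤ 2 * w) (hg0 : 0 < g) (hgw : g ≤ w ^ 2)
    (hp : h * g - w ^ 3 / 2 ≤ -(w ^ 4 / 1000)) (hc : (1 - η) * w ^ 2 / 2 < x * g) :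
    h + x * -w ≤ -(w ^ 2 / 2000) := by
  have hb : η * w ^ 3 / 2 ≤ w ^ 4 / 2000 := by
    rw [hη]
    nlinarith [mul_le_mul_of_nonneg_right hwth (pow_nonneg hw.le 3)]
  have hmain : (h + x * -w) * g ≤ -(w ^ 4 / 2000) := by
    nlinarith [mul_lt_mul_of_pos_right hc hw]
  have hneg : h + x * -w ≤ 0 := by
    by_contra hpos
    push Not at hpos
    nlinarith [mul_pos hpos hg0, pow_pos hw 4]
  have h3 : (h + x * -w) * w ^ 2 ≤ -(w ^ 4 / 2000) := by
    nlinarith [mul_le_mul_of_nonpos_left hgw hneg]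
  refine le_of_mul_le_mul_right ?_ (pow_pos hw 2)
  linarith

theorem small {th w x : ℝ} (h0 : 0 < th) (h1 : th < 1) (hw : 0 < w) (hw2 : w ≤ 1 / 2)
    (hx : x ≤ th) :
    R w w 0 + x * S w w ≤ -((1 - th) / 4000) * w ^ 2 ∨
      R w 0 (2 * w - w ^ 2) + x * S w 0 ≤ -((1 - th) / 4000) * w ^ 2 := by
  obtain ⟨hg0, hgu, hg2⟩ := g_bounds hw hw2
  obtain ⟨hH, hh⟩ := h_bounds hw hw2
  by_cases hc : x * (-log (1 - w) - w) ≤ (1 - (1 - th) / 2000) * w ^ 2 / 2
  · left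
    simp only [R, S]
    norm_num
    nlinarith
  right
  push Not at hc
  have hp : H w * (-log (1 - w) - w) - w ^ 3 / 2 ≤ -(w ^ 4 / 1000) :=
    (sub_le_sub_right (mul_le_mul_of_nonneg_left hgu hH) _).trans (small_poly hw.le hw2)
  have hgw : -log (1 - w) - w ≤ w ^ 2 := by
    nlinarith [mul_le_mul_of_nonneg_left hw2 (sq_nonneg w)]
  have hwth := crossing h0 h1 hw rfl hx hg0 hg2 hc
  have := second_line hw rfl hwth hg0 hgw hp hc
  have hS : S w 0 = -w := by simp [S]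
  rw [hS]
  nlinarith

/-- Two lines in `x` below `-m`, switching at `xs`. -/
theorem two_lines {RA SA RB SB x xs m : ℝ} (hx0 : 0 ≤ x) (hx1 : x ≤ 1)
    (a0 : RA ≤ -m) (a1 : RA + xs * SA ≤ -m) (b0 : RB + xs * SB ≤ -m) (b1 : RB + SB ≤ -m) :
    RA + x * SA ≤ -m ∨ RB + x * SB ≤ -m := by
  rcases le_total x xs with h | h
  · left
    rcases le_total 0 SA with hs | hs
    · linarith [mul_le_mul_of_nonneg_right h hs]
    · linarith [mul_nonpos_of_nonneg_of_nonpos hx0 hs]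
  · right
    rcases le_total 0 SB with hs | hs
    · linarith [mul_le_mul_of_nonneg_right hx1 hs]
    · linarith [mul_le_mul_of_nonpos_right h hs]

theorem middle {w x : ℝ} (hw : 1 / 2 ≤ w) (hx0 : 0 ≤ x) (hx1 : x ≤ 1) :
    ∃ W k, 0 ≤ W ∧ W ≤ 7 / 10 ∧ 0 < k ∧ k < 2 ∧ R w W k + x * S w W ≤ -(1 / 1000) := by
  have L (v : ℝ) (h0 : 0 ≤ v) (h1 : v < 1) := neg_log_one_sub_le h0 h1 14
  have l50 := L (1 / 2) (by norm_num) (by norm_num)
  have l40 := L (2 / 5) (by norm_num) (by norm_num)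
  have l65 := L (13 / 20) (by norm_num) (by norm_num)
  have l45 := L (9 / 20) (by norm_num) (by norm_num)
  have l70 := L (7 / 10) (by norm_num) (by norm_num)
  have k15 := L (3 / 40) (by norm_num) (by norm_num)
  have k30 := L (3 / 20) (by norm_num) (by norm_num)
  have k35 := L (7 / 40) (by norm_num) (by norm_num)
  have k55 := L (11 / 40) (by norm_num) (by norm_num)
  have k65 := L (13 / 40) (by norm_num) (by norm_num)
  have k70 := L (7 / 20) (by norm_num) (by norm_num)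
  simp only [Finset.sum_range_succ, Finset.sum_range_zero] at l50 l40 l65 l45 l70 k15 k30 k35 k55 k65 k70
  norm_num at l50 l40 l65 l45 l70 k15 k30 k35 k55 k65 k70
  rcases le_total w (13 / 20) with h1 | h1
  · have a := mul_nonneg (sub_nonneg.2 hw) (sub_nonneg.2 h1)
    rcases two_lines (RA := R w (1 / 2) (3 / 20)) (SA := S w (1 / 2)) (RB := R w (2 / 5) (3 / 10))
      (SB := S w (2 / 5)) (xs := 2 / 5) (m := 1 / 1000) hx0 hx1
      (by simp only [R]; norm_num; nlinarith) (by simp only [R, S]; norm_num; nlinarith)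
      (by simp only [R, S]; norm_num; nlinarith) (by simp only [R, S]; norm_num; nlinarith) with h | h
    · exact ⟨_, _, by norm_num, by norm_num, by norm_num, by norm_num, h⟩
    · exact ⟨_, _, by norm_num, by norm_num, by norm_num, by norm_num, h⟩
  rcases le_total w (11 / 10) with h2 | h2
  · have a := mul_nonneg (sub_nonneg.2 h1) (sub_nonneg.2 h2)
    rcases two_lines (RA := R w (13 / 20) (7 / 20)) (SA := S w (13 / 20))
      (RB := R w (9 / 20) (11 / 20)) (SB := S w (9 / 20)) (xs := 1 / 4) (m := 1 / 1000) hx0 hx1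
      (by simp only [R]; norm_num; nlinarith) (by simp only [R, S]; norm_num; nlinarith)
      (by simp only [R, S]; norm_num; nlinarith) (by simp only [R, S]; norm_num; nlinarith) with h | h
    · exact ⟨_, _, by norm_num, by norm_num, by norm_num, by norm_num, h⟩
    · exact ⟨_, _, by norm_num, by norm_num, by norm_num, by norm_num, h⟩
  rcases le_total w (3 / 2) with h3 | h3
  · have a := mul_nonneg (sub_nonneg.2 h2) (sub_nonneg.2 h3)
    rcases two_lines (RA := R w (7 / 10) (13 / 20)) (SA := S w (7 / 10))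
      (RB := R w (13 / 20) (7 / 10)) (SB := S w (13 / 20)) (xs := 1 / 4) (m := 1 / 1000) hx0 hx1
      (by simp only [R]; norm_num; nlinarith) (by simp only [R, S]; norm_num; nlinarith)
      (by simp only [R, S]; norm_num; nlinarith) (by simp only [R, S]; norm_num; nlinarith) with h | h
    · exact ⟨_, _, by norm_num, by norm_num, by norm_num, by norm_num, h⟩
    · exact ⟨_, _, by norm_num, by norm_num, by norm_num, by norm_num, h⟩
  refine ⟨0, 3 / 2, by norm_num, by norm_num, by norm_num, by norm_num, ?_⟩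
  have h4 : log (1 / 4 : ℝ) = -(2 * log 2) := by
    rw [show (1 / 4 : ℝ) = (2 ^ 2)⁻¹ by norm_num, log_inv, log_pow]; norm_num
  have := log_two_lt_d9
  simp only [R, S]
  norm_num
  nlinarith [mul_nonneg hx0 (by linarith : (0 : ℝ) ≤ w)]

/-- **Scalar core**: for every `th < 1` admissible parameters make `V` negative, with a margin. -/
theorem scalarB {th q u : ℝ} (h0 : 0 < th) (h1 : th < 1) (hq0 : 0 ≤ q) (hq : q ≤ 1) (hu : u ≠ 0) :
    ∃ U k : ℝ, -|u| ≤ U ∧ U ≤ 7 / 10 ∧ 0 ≤ k ∧ k < 2 ∧ (k = 0 → U = u) ∧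
      V th q u U k ≤ -((1 - th) / 4000) * min (u ^ 2) 1 := by
  set κ := (1 - th) / 4000 with hκ
  have hκ0 : 0 ≤ κ := by rw [hκ]; linarith
  have hm := mul_le_mul_of_nonneg_left (min_le_left (u ^ 2) 1) hκ0
  rcases lt_or_gt_of_ne hu with hn | hp
  · refine ⟨u, 0, (neg_abs_le u), by linarith, le_rfl, by norm_num, fun _ => rfl,
      (neg_case h0 h1 hq0 hq hn).trans ?_⟩
    nlinarith [sq_nonneg u]
  set w := u / th with hw
  have hw0 : 0 < w := div_pos hp h0
  have hu' : th * w = u := by rw [hw]; field_simp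
  have huw : u ≤ w := by rw [← hu']; nlinarith
  have hu2 : u ^ 2 ≤ w ^ 2 := pow_le_pow_left₀ hp.le huw 2
  have hx : (1 - q) * th ≤ th := by nlinarith
  have hlo : ∀ U : ℝ, 0 ≤ U → -|u| ≤ U := fun U hU => by linarith [abs_nonneg u]
  rcases le_total w (1 / 2) with hs | hs
  · rcases small h0 h1 hw0 hs hx with h | h
    · refine ⟨th * w, 0, hlo _ (mul_nonneg h0.le hw0.le),
        by linarith [mul_le_mul h1.le hs hw0.le (by norm_num : (0:ℝ) ≤ 1)],
        le_rfl, by norm_num, fun _ => hu', ?_⟩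
      have := V_le_scaled (k := 0) (w := w) h0 h1 hq (by linarith : w < 1)
      rw [hu'] at this ⊢
      nlinarith [mul_le_mul_of_nonneg_left hu2 hκ0]
    · refine ⟨th * 0, 2 * w - w ^ 2, hlo _ (by simp), by norm_num, by nlinarith, by nlinarith,
        fun e => absurd e (by nlinarith), ?_⟩
      have := V_le_scaled (k := 2 * w - w ^ 2) (w := w) (W := 0) h0 h1 hq zero_lt_one
      rw [hu'] at this
      nlinarith [mul_le_mul_of_nonneg_left hu2 hκ0]
  · obtain ⟨W, k, hW0, hW, hk0, hk2, h⟩ :=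
      middle hs (mul_nonneg (by linarith) h0.le : 0 ≤ (1 - q) * th) (hx.trans h1.le)
    refine ⟨th * W, k, hlo _ (mul_nonneg h0.le hW0), by nlinarith, hk0.le, hk2,
      fun e => absurd e hk0.ne', ?_⟩
    have := V_le_scaled (k := k) (w := w) h0 h1 hq (by linarith : W < 1)
    rw [hu'] at this
    nlinarith [mul_le_mul_of_nonneg_left (min_le_right (u ^ 2) 1) hκ0]

end Vale.Agent.P150.Full.ScalarB
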